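import Vale.Agent.P116.Glue
import Vale.Agent.P116B.Main
import Vale.Agent.P116D.Main

namespace Vale.Agent.Results.P116.Full

open Vale.P116

theorem result (G : Set Sph) (hG : IsDomain G) :
    ∃ Ω : Set Sph, IsCircleDomain Ω ∧ ConfEquiv G Ω :=
  glue Vale.P116D.partA Vale.P116B.partB G hG

end Vale.Agent.Results.P116.Full
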